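import Mathlib

namespace Vale.Agent.Results.P040.A_CollinearClass

open Set

theorem arith (l k : ℕ) :
    2 * ((l + k) / 2 * ((l + k - 1) / 2)) ≤ l * l - l + (k * k - k) := by
  have h1 : l ≤ l * l := Nat.le_mul_self l
  have h2 : k ≤ k * k := Nat.le_mul_self k
  have key : 2 * ((l + k) / 2 * ((l + k - 1) / 2)) + l + k ≤ l * l + k * k := by
    rcases Nat.even_or_odd' (l + k) with ⟨q, hq | hq⟩
    · have e1 : (l + k) / 2 = q := by omega
      rcases Nat.eq_zero_or_pos q with h0 | hpos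
      · have hl : l = 0 := by omega
        have hk : k = 0 := by omega
        subst hl hk
        simp
      · obtain ⟨q', rfl⟩ : ∃ q', q = q' + 1 := ⟨q - 1, by omega⟩
        have e2 : (l + k - 1) / 2 = q' := by omega
        rw [e1, e2]
        zify at hq ⊢
        nlinarith [sq_nonneg ((l : ℤ) - k)]
    · have e1 : (l + k) / 2 = q := by omega
      have e2 : (l + k - 1) / 2 = q := by omega
      rw [e1, e2]
      have hne : (l : ℤ) - k ≥ 1 ∨ (l : ℤ) - k ≤ -1 := by omega
      zify at hq ⊢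
      rcases hne with h | h <;> nlinarith
  omega

/-- Two points `u`, `v` above the horizontal axis, `v` at least as high as `u`, and two points
`a < b` of the axis to the right of the line `uv`: the segments `u b` and `v a` cross. -/
theorem cross_right {u1 u2 v1 v2 a b : ℝ} (hu : 0 < u2) (huv : u2 ≤ v2) (hab : a < b)
    (hg : 0 < (v2 - u2) * a - (u1 * v2 - v1 * u2)) :
    (openSegment ℝ ((u1, u2) : ℝ × ℝ) (b, 0) ∩ openSegment ℝ ((v1, v2) : ℝ × ℝ) (a, 0)).Nonempty := by
  have hv : 0 < v2 := lt_of_lt_of_le hu huv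
  have hba : 0 < b - a := sub_pos.2 hab
  obtain ⟨E, hE⟩ : ∃ E : ℝ, E = (v2 - u2) * a - (u1 * v2 - v1 * u2) + v2 * (b - a) := ⟨_, rfl⟩
  have hEpos : 0 < E := by
    have := mul_pos hv hba
    linarith
  have hσ0 : 0 < (b - a) * v2 / E := div_pos (mul_pos hba hv) hEpos
  have hσ1 : (b - a) * v2 / E < 1 := by
    rw [div_lt_one hEpos]
    nlinarith
  have hρ0 : 0 < (b - a) * u2 / E := div_pos (mul_pos hba hu) hEpos
  have hρ1 : (b - a) * u2 / E < 1 := by
    rw [div_lt_one hEpos]
    nlinarith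
  refine ⟨((b - a) * v2 / E * u1 + (1 - (b - a) * v2 / E) * b, (b - a) * v2 / E * u2),
    ⟨(b - a) * v2 / E, 1 - (b - a) * v2 / E, hσ0, by linarith, by ring, ?_⟩,
    ⟨(b - a) * u2 / E, 1 - (b - a) * u2 / E, hρ0, by linarith, by ring, ?_⟩⟩
  · ext <;> simp
  · refine Prod.ext ?_ ?_
    · simp only [Prod.smul_mk, Prod.mk_add_mk, smul_eq_mul, mul_zero, add_zero]
      field_simp
      rw [hE]
      ring
    · simp only [Prod.smul_mk, Prod.mk_add_mk, smul_eq_mul, mul_zero, add_zero]
      field_simp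

/-- The mirror case: both axis points to the left of the line `uv`: the segments `u a` and
`v b` cross. -/
theorem cross_left {u1 u2 v1 v2 a b : ℝ} (hu : 0 < u2) (huv : u2 ≤ v2) (hab : a < b)
    (hg : (v2 - u2) * b - (u1 * v2 - v1 * u2) < 0) :
    (openSegment ℝ ((u1, u2) : ℝ × ℝ) (a, 0) ∩ openSegment ℝ ((v1, v2) : ℝ × ℝ) (b, 0)).Nonempty := by
  have hv : 0 < v2 := lt_of_lt_of_le hu huv
  have hba : 0 < b - a := sub_pos.2 hab
  obtain ⟨E, hE⟩ : ∃ E : ℝ, E = v2 * (b - a) - ((v2 - u2) * b - (u1 * v2 - v1 * u2)) := ⟨_, rfl⟩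
  have hEpos : 0 < E := by
    have := mul_pos hv hba
    linarith
  have hσ0 : 0 < (b - a) * v2 / E := div_pos (mul_pos hba hv) hEpos
  have hσ1 : (b - a) * v2 / E < 1 := by
    rw [div_lt_one hEpos]
    nlinarith
  have hρ0 : 0 < (b - a) * u2 / E := div_pos (mul_pos hba hu) hEpos
  have hρ1 : (b - a) * u2 / E < 1 := by
    rw [div_lt_one hEpos]
    nlinarith
  refine ⟨((b - a) * v2 / E * u1 + (1 - (b - a) * v2 / E) * a, (b - a) * v2 / E * u2),
    ⟨(b - a) * v2 / E, 1 - (b - a) * v2 / E, hσ0, by linarith, by ring, ?_⟩,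
    ⟨(b - a) * u2 / E, 1 - (b - a) * u2 / E, hρ0, by linarith, by ring, ?_⟩⟩
  · ext <;> simp
  · refine Prod.ext ?_ ?_
    · simp only [Prod.smul_mk, Prod.mk_add_mk, smul_eq_mul, mul_zero, add_zero]
      field_simp
      rw [hE]
      ring
    · simp only [Prod.smul_mk, Prod.mk_add_mk, smul_eq_mul, mul_zero, add_zero]
      field_simp

theorem neg_of_mul_pos_of_not_pos {x y : ℝ} (h : 0 < x * y) (hx : ¬ 0 < x) : x < 0 ∧ y < 0 := by
  have hx0 : x ≠ 0 := by
    rintro rfl
    simp at h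
  have hx' : x < 0 := lt_of_le_of_ne (not_lt.1 hx) hx0
  refine ⟨hx', ?_⟩
  by_contra hy
  have : x * y ≤ 0 := mul_nonpos_of_nonpos_of_nonneg hx'.le (not_lt.1 hy)
  linarith

theorem pos_of_mul_pos_of_pos {x y : ℝ} (h : 0 < x * y) (hx : 0 < x) : 0 < y := by
  by_contra hy
  have : x * y ≤ 0 := mul_nonpos_of_nonneg_of_nonpos hx.le (not_lt.1 hy)
  linarith

/-- Both points above the axis, two distinct axis points on the same side of the line `uv`:
one of the two pairs of segments crosses. -/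
theorem cross_pos {u1 u2 v1 v2 a b : ℝ} (hu : 0 < u2) (hv : 0 < v2) (hab : a ≠ b)
    (hg : 0 < ((v2 - u2) * a - (u1 * v2 - v1 * u2)) * ((v2 - u2) * b - (u1 * v2 - v1 * u2))) :
    (openSegment ℝ ((u1, u2) : ℝ × ℝ) (a, 0) ∩ openSegment ℝ ((v1, v2) : ℝ × ℝ) (b, 0)).Nonempty ∨
    (openSegment ℝ ((u1, u2) : ℝ × ℝ) (b, 0) ∩ openSegment ℝ ((v1, v2) : ℝ × ℝ) (a, 0)).Nonempty := by
  rcases le_total u2 v2 with huv | hvu
  · rcases lt_or_gt_of_ne hab with h | h
    · by_cases hga : 0 < (v2 - u2) * a - (u1 * v2 - v1 * u2)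
      · exact Or.inr (cross_right hu huv h hga)
      · exact Or.inl (cross_left hu huv h (neg_of_mul_pos_of_not_pos hg hga).2)
    · rw [mul_comm] at hg
      by_cases hgb : 0 < (v2 - u2) * b - (u1 * v2 - v1 * u2)
      · exact Or.inl (cross_right hu huv h hgb)
      · exact Or.inr (cross_left hu huv h (neg_of_mul_pos_of_not_pos hg hgb).2)
  · have hg' : 0 < ((u2 - v2) * a - (v1 * u2 - u1 * v2)) * ((u2 - v2) * b - (v1 * u2 - u1 * v2)) := by
      have e : ((u2 - v2) * a - (v1 * u2 - u1 * v2)) * ((u2 - v2) * b - (v1 * u2 - u1 * v2))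
          = ((v2 - u2) * a - (u1 * v2 - v1 * u2)) * ((v2 - u2) * b - (u1 * v2 - v1 * u2)) := by ring
      rw [e]
      exact hg
    rcases lt_or_gt_of_ne hab with h | h
    · by_cases hga : 0 < (u2 - v2) * a - (v1 * u2 - u1 * v2)
      · have := cross_right hv hvu h hga
        rw [inter_comm] at this
        exact Or.inl this
      · have := cross_left hv hvu h (neg_of_mul_pos_of_not_pos hg' hga).2
        rw [inter_comm] at this
        exact Or.inr this
    · rw [mul_comm] at hg'
      by_cases hgb : 0 < (u2 - v2) * b - (v1 * u2 - u1 * v2)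
      · have := cross_right hv hvu h hgb
        rw [inter_comm] at this
        exact Or.inr this
      · have := cross_left hv hvu h (neg_of_mul_pos_of_not_pos hg' hgb).2
        rw [inter_comm] at this
        exact Or.inl this

theorem refl_cross {u1 u2 v1 v2 a b : ℝ}
    (h : (openSegment ℝ ((u1, -u2) : ℝ × ℝ) (a, 0) ∩ openSegment ℝ ((v1, -v2) : ℝ × ℝ) (b, 0)).Nonempty) :
    (openSegment ℝ ((u1, u2) : ℝ × ℝ) (a, 0) ∩ openSegment ℝ ((v1, v2) : ℝ × ℝ) (b, 0)).Nonempty := by
  obtain ⟨z, ⟨s, t, hs, ht, hst, hz⟩, ⟨s', t', hs', ht', hst', hz'⟩⟩ := h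
  refine ⟨(z.1, -z.2), ⟨s, t, hs, ht, hst, ?_⟩, ⟨s', t', hs', ht', hst', ?_⟩⟩
  · rw [← hz]
    ext <;> simp
  · rw [← hz']
    ext <;> simp

/-- Two points on the same side of the axis and two distinct axis points on the same side of
the line through them: one of the two pairs of segments crosses. -/
theorem cross_or (u v : ℝ × ℝ) (hside : 0 < u.2 * v.2) (a b : ℝ) (hab : a ≠ b)
    (hg : 0 < ((v.2 - u.2) * a - (u.1 * v.2 - v.1 * u.2)) *
      ((v.2 - u.2) * b - (u.1 * v.2 - v.1 * u.2))) :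
    (openSegment ℝ u (a, (0 : ℝ)) ∩ openSegment ℝ v (b, (0 : ℝ))).Nonempty ∨
    (openSegment ℝ u (b, (0 : ℝ)) ∩ openSegment ℝ v (a, (0 : ℝ))).Nonempty := by
  obtain ⟨u1, u2⟩ := u
  obtain ⟨v1, v2⟩ := v
  simp only at hside hg ⊢
  by_cases hu : 0 < u2
  · exact cross_pos hu (pos_of_mul_pos_of_pos hside hu) hab hg
  · obtain ⟨hu', hv'⟩ := neg_of_mul_pos_of_not_pos hside hu
    have hg' : 0 < ((-v2 - -u2) * a - (u1 * -v2 - v1 * -u2)) *
        ((-v2 - -u2) * b - (u1 * -v2 - v1 * -u2)) := by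
      have e : ((-v2 - -u2) * a - (u1 * -v2 - v1 * -u2)) * ((-v2 - -u2) * b - (u1 * -v2 - v1 * -u2))
          = ((v2 - u2) * a - (u1 * v2 - v1 * u2)) * ((v2 - u2) * b - (u1 * v2 - v1 * u2)) := by ring
      rw [e]
      exact hg
    rcases cross_pos (u1 := u1) (v1 := v1) (neg_pos.2 hu') (neg_pos.2 hv') hab hg' with h | h
    · exact Or.inl (refl_cross h)
    · exact Or.inr (refl_cross h)

open Classical in
/-- Zarankiewicz's bound for straight-line drawings of `K_{m,n}` with one class on a line: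
the `m` vertices of one class are the points `(α i, 0)` of the horizontal axis, the `n` vertices
`u j` of the other class lie off the axis, and no axis vertex lies on the line through two
vertices `u j`, `u j'` on the same side of the axis. Then the number of ordered pairs of edges
with distinct end points whose open segments meet is at least twice
`floor(m/2) floor((m-1)/2) floor(n/2) floor((n-1)/2)`. -/
theorem result : ∀ (m n : ℕ) (α : Fin m → ℝ) (u : Fin n → ℝ × ℝ),
    Function.Injective α → (∀ j, (u j).2 ≠ 0) →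
    (∀ j j' : Fin n, j ≠ j' → 0 < (u j).2 * (u j').2 → ∀ i : Fin m,
      ((u j').2 - (u j).2) * α i ≠ (u j).1 * (u j').2 - (u j').1 * (u j).2) →
    2 * ((m / 2 * ((m - 1) / 2)) * (n / 2 * ((n - 1) / 2))) ≤
      ((Finset.univ : Finset ((Fin n × Fin n) × (Fin m × Fin m))).filter (fun q =>
        q.1.1 ≠ q.1.2 ∧ q.2.1 ≠ q.2.2 ∧
        (openSegment ℝ (u q.1.1) (α q.2.1, (0 : ℝ)) ∩
          openSegment ℝ (u q.1.2) (α q.2.2, (0 : ℝ))).Nonempty)).card := by
  intro m n α u hα hu hgen
  classical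
  -- the bound for one pair of vertices on the same side
  have pair : ∀ j j' : Fin n, j ≠ j' → 0 < (u j).2 * (u j').2 →
      m / 2 * ((m - 1) / 2) ≤ ((Finset.univ : Finset (Fin m × Fin m)).filter (fun p =>
        p.1 ≠ p.2 ∧ (openSegment ℝ (u j) (α p.1, (0 : ℝ)) ∩
          openSegment ℝ (u j') (α p.2, (0 : ℝ))).Nonempty)).card := by
    intro j j' hjj hside
    obtain ⟨X, hX⟩ : ∃ X : Finset (Fin m × Fin m), X = (Finset.univ : Finset (Fin m × Fin m)).filter
        (fun p => p.1 ≠ p.2 ∧ (openSegment ℝ (u j) (α p.1, (0 : ℝ)) ∩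
          openSegment ℝ (u j') (α p.2, (0 : ℝ))).Nonempty) := ⟨_, rfl⟩
    rw [← hX]
    obtain ⟨g, hgdef⟩ : ∃ g : ℝ → ℝ, g = fun x =>
        ((u j').2 - (u j).2) * x - ((u j).1 * (u j').2 - (u j').1 * (u j).2) := ⟨_, rfl⟩
    have hg0 : ∀ i, g (α i) ≠ 0 := by
      intro i h0
      rw [hgdef] at h0
      exact hgen j j' hjj hside i (by linarith)
    obtain ⟨L, hL⟩ : ∃ L : Finset (Fin m), L = Finset.univ.filter (fun i => 0 < g (α i)) := ⟨_, rfl⟩
    obtain ⟨K, hK⟩ : ∃ K : Finset (Fin m), K = Finset.univ.filter (fun i => g (α i) < 0) := ⟨_, rfl⟩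
    have hKL : K = Lᶜ := by
      ext i
      rw [hK, hL]
      simp only [Finset.mem_filter, Finset.mem_univ, true_and, Finset.mem_compl, not_lt]
      exact ⟨fun h => h.le, fun h => lt_of_le_of_ne h (hg0 i)⟩
    have hLK : L.card + K.card = m := by
      rw [hKL, Finset.card_add_card_compl, Fintype.card_fin]
    have hsub : L.offDiag ∪ K.offDiag ⊆ X ∪ X.image Prod.swap := by
      intro p hp
      have hp' : p.1 ≠ p.2 ∧ 0 < g (α p.1) * g (α p.2) := by
        rcases Finset.mem_union.1 hp with h | h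
        · obtain ⟨h1, h2, h3⟩ := Finset.mem_offDiag.1 h
          rw [hL] at h1 h2
          exact ⟨h3, mul_pos (Finset.mem_filter.1 h1).2 (Finset.mem_filter.1 h2).2⟩
        · obtain ⟨h1, h2, h3⟩ := Finset.mem_offDiag.1 h
          rw [hK] at h1 h2
          exact ⟨h3, mul_pos_of_neg_of_neg (Finset.mem_filter.1 h1).2 (Finset.mem_filter.1 h2).2⟩
      obtain ⟨hne, hpos⟩ := hp'
      have hab : α p.1 ≠ α p.2 := fun h => hne (hα h)
      rw [hgdef] at hpos
      rcases cross_or (u j) (u j') hside (α p.1) (α p.2) hab hpos with h | h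
      · apply Finset.mem_union_left
        rw [hX]
        exact Finset.mem_filter.2 ⟨Finset.mem_univ _, hne, h⟩
      · apply Finset.mem_union_right
        rw [Finset.mem_image]
        refine ⟨(p.2, p.1), ?_, rfl⟩
        rw [hX]
        exact Finset.mem_filter.2 ⟨Finset.mem_univ _, hne.symm, h⟩
    have hdisj : Disjoint L.offDiag K.offDiag := by
      rw [Finset.disjoint_left]
      intro p h1 h2
      have a1 := (Finset.mem_offDiag.1 h1).1
      have a2 := (Finset.mem_offDiag.1 h2).1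
      rw [hL] at a1
      rw [hK] at a2
      have b1 := (Finset.mem_filter.1 a1).2
      have b2 := (Finset.mem_filter.1 a2).2
      linarith
    have hcard : L.card * L.card - L.card + (K.card * K.card - K.card) ≤ 2 * X.card := by
      calc L.card * L.card - L.card + (K.card * K.card - K.card)
          = (L.offDiag ∪ K.offDiag).card := by
            rw [Finset.card_union_of_disjoint hdisj, Finset.offDiag_card, Finset.offDiag_card]
        _ ≤ (X ∪ X.image Prod.swap).card := Finset.card_le_card hsub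
        _ ≤ X.card + (X.image Prod.swap).card := Finset.card_union_le _ _
        _ ≤ X.card + X.card := Nat.add_le_add_left Finset.card_image_le _
        _ = 2 * X.card := by ring
    have := arith L.card K.card
    rw [hLK] at this
    omega
  -- pairs of vertices on the same side
  obtain ⟨T, hT⟩ : ∃ T : Finset (Fin n × Fin n), T = (Finset.univ : Finset (Fin n × Fin n)).filter
      (fun t => t.1 ≠ t.2 ∧ 0 < (u t.1).2 * (u t.2).2) := ⟨_, rfl⟩
  have hTcard : 2 * (n / 2 * ((n - 1) / 2)) ≤ T.card := by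
    obtain ⟨P, hP⟩ : ∃ P : Finset (Fin n), P = Finset.univ.filter (fun j => 0 < (u j).2) := ⟨_, rfl⟩
    obtain ⟨Q, hQ⟩ : ∃ Q : Finset (Fin n), Q = Finset.univ.filter (fun j => (u j).2 < 0) := ⟨_, rfl⟩
    have hQP : Q = Pᶜ := by
      ext j
      rw [hQ, hP]
      simp only [Finset.mem_filter, Finset.mem_univ, true_and, Finset.mem_compl, not_lt]
      exact ⟨fun h => h.le, fun h => lt_of_le_of_ne h (hu j)⟩
    have hPQ : P.card + Q.card = n := by
      rw [hQP, Finset.card_add_card_compl, Fintype.card_fin]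
    have hsub : P.offDiag ∪ Q.offDiag ⊆ T := by
      intro t ht
      rw [hT]
      rcases Finset.mem_union.1 ht with h | h
      · obtain ⟨h1, h2, h3⟩ := Finset.mem_offDiag.1 h
        rw [hP] at h1 h2
        exact Finset.mem_filter.2 ⟨Finset.mem_univ _, h3,
          mul_pos (Finset.mem_filter.1 h1).2 (Finset.mem_filter.1 h2).2⟩
      · obtain ⟨h1, h2, h3⟩ := Finset.mem_offDiag.1 h
        rw [hQ] at h1 h2
        exact Finset.mem_filter.2 ⟨Finset.mem_univ _, h3,
          mul_pos_of_neg_of_neg (Finset.mem_filter.1 h1).2 (Finset.mem_filter.1 h2).2⟩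
    have hdisj : Disjoint P.offDiag Q.offDiag := by
      rw [Finset.disjoint_left]
      intro t h1 h2
      have a1 := (Finset.mem_offDiag.1 h1).1
      have a2 := (Finset.mem_offDiag.1 h2).1
      rw [hP] at a1
      rw [hQ] at a2
      have b1 := (Finset.mem_filter.1 a1).2
      have b2 := (Finset.mem_filter.1 a2).2
      linarith
    have hcard : P.card * P.card - P.card + (Q.card * Q.card - Q.card) ≤ T.card := by
      calc P.card * P.card - P.card + (Q.card * Q.card - Q.card)
          = (P.offDiag ∪ Q.offDiag).card := by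
            rw [Finset.card_union_of_disjoint hdisj, Finset.offDiag_card, Finset.offDiag_card]
        _ ≤ T.card := Finset.card_le_card hsub
    have := arith P.card Q.card
    rw [hPQ] at this
    omega
  -- summation over the pairs of vertices
  have hsum : ((Finset.univ : Finset ((Fin n × Fin n) × (Fin m × Fin m))).filter (fun q =>
        q.1.1 ≠ q.1.2 ∧ q.2.1 ≠ q.2.2 ∧
        (openSegment ℝ (u q.1.1) (α q.2.1, (0 : ℝ)) ∩
          openSegment ℝ (u q.1.2) (α q.2.2, (0 : ℝ))).Nonempty)).card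
      = ∑ t : Fin n × Fin n, ((Finset.univ : Finset (Fin m × Fin m)).filter (fun p =>
        t.1 ≠ t.2 ∧ p.1 ≠ p.2 ∧ (openSegment ℝ (u t.1) (α p.1, (0 : ℝ)) ∩
          openSegment ℝ (u t.2) (α p.2, (0 : ℝ))).Nonempty)).card := by
    rw [Finset.card_filter, ← Finset.univ_product_univ, Finset.sum_product]
    refine Finset.sum_congr rfl (fun t _ => ?_)
    rw [Finset.card_filter]
  rw [hsum]
  calc 2 * ((m / 2 * ((m - 1) / 2)) * (n / 2 * ((n - 1) / 2)))
      = (2 * (n / 2 * ((n - 1) / 2))) * (m / 2 * ((m - 1) / 2)) := by ring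
    _ ≤ T.card * (m / 2 * ((m - 1) / 2)) := Nat.mul_le_mul_right _ hTcard
    _ = ∑ _t ∈ T, m / 2 * ((m - 1) / 2) := by rw [Finset.sum_const, smul_eq_mul]
    _ ≤ ∑ t ∈ T, ((Finset.univ : Finset (Fin m × Fin m)).filter (fun p =>
        t.1 ≠ t.2 ∧ p.1 ≠ p.2 ∧ (openSegment ℝ (u t.1) (α p.1, (0 : ℝ)) ∩
          openSegment ℝ (u t.2) (α p.2, (0 : ℝ))).Nonempty)).card := by
        refine Finset.sum_le_sum (fun t ht => ?_)
        rw [hT] at ht
        obtain ⟨hne, hside⟩ := (Finset.mem_filter.1 ht).2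
        have := pair t.1 t.2 hne hside
        refine this.trans (Finset.card_le_card ?_)
        intro p hp
        obtain ⟨h1, h2⟩ := (Finset.mem_filter.1 hp).2
        exact Finset.mem_filter.2 ⟨Finset.mem_univ _, hne, h1, h2⟩
    _ ≤ ∑ t : Fin n × Fin n, ((Finset.univ : Finset (Fin m × Fin m)).filter (fun p =>
        t.1 ≠ t.2 ∧ p.1 ≠ p.2 ∧ (openSegment ℝ (u t.1) (α p.1, (0 : ℝ)) ∩
          openSegment ℝ (u t.2) (α p.2, (0 : ℝ))).Nonempty)).card :=
        Finset.sum_le_sum_of_subset (Finset.subset_univ T)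

end Vale.Agent.Results.P040.A_CollinearClass
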